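import Vale.Agent.Lib.P308_helper27.Flip

namespace Vale.Agent.Lib.P308_helper27

open SimpleGraph

variable {V : Type*} {G : SimpleGraph V}

open Classical in
/-- the involution of a matching subgraph -/
noncomputable def toInv (M : G.Subgraph) (hM : M.IsMatching) (v : V) : V :=
  if h : v ∈ M.verts then (hM h).choose else v

theorem toInv_adj (M : G.Subgraph) (hM : M.IsMatching) {v : V} (h : v ∈ M.verts) :
    M.Adj v (toInv M hM v) := by
  unfold toInv
  rw [dif_pos h]
  exact (hM h).choose_spec.1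

theorem toInv_eq (M : G.Subgraph) (hM : M.IsMatching) {v w : V} (h : M.Adj v w) :
    toInv M hM v = w :=
  hM.eq_of_adj_left (toInv_adj M hM (M.edge_vert h)) h

theorem toInv_off (M : G.Subgraph) (hM : M.IsMatching) {v : V} (h : v ∉ M.verts) :
    toInv M hM v = v := by
  unfold toInv
  rw [dif_neg h]

theorem toInv_fix_iff (M : G.Subgraph) (hM : M.IsMatching) (v : V) :
    toInv M hM v = v ↔ v ∉ M.verts := by
  constructor
  · intro h hv
    have := toInv_adj M hM hv
    rw [h] at this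
    exact (M.adj_sub this).ne rfl
  · exact toInv_off M hM

theorem toInv_isMatch (M : G.Subgraph) (hM : M.IsMatching) : IsMatch G (toInv M hM) := by
  constructor
  · intro v
    by_cases h : v ∈ M.verts
    · exact toInv_eq M hM (toInv_adj M hM h).symm
    · rw [toInv_off M hM h, toInv_off M hM h]
  · intro v hv
    have h : v ∈ M.verts := by
      by_contra h
      exact hv (toInv_off M hM h)
    exact M.adj_sub (toInv_adj M hM h)

theorem toInv_inj (M₁ M₂ : G.Subgraph) (h₁ : M₁.IsMatching) (h₂ : M₂.IsMatching)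
    (h : toInv M₁ h₁ = toInv M₂ h₂) : M₁ = M₂ := by
  have hv : M₁.verts = M₂.verts := by
    ext v
    have a := toInv_fix_iff M₁ h₁ v
    have b := toInv_fix_iff M₂ h₂ v
    rw [h] at a
    have := a.symm.trans b
    exact not_iff_not.mp this
  apply Subgraph.ext hv
  funext v w
  apply propext
  constructor
  · intro ha
    have e := toInv_eq M₁ h₁ ha
    rw [h] at e
    rw [← e]
    exact toInv_adj M₂ h₂ (hv ▸ M₁.edge_vert ha)
  · intro ha
    have e := toInv_eq M₂ h₂ ha
    rw [← h] at e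
    rw [← e]
    exact toInv_adj M₁ h₁ (hv ▸ M₂.edge_vert ha)

/-- the spanning subgraph of a fixed-point-free matching involution -/
def ofInv (σ : V → V) (h : IsMatch G σ) (h' : ∀ v, σ v ≠ v) : G.Subgraph where
  verts := Set.univ
  Adj v w := σ v = w
  adj_sub := by
    intro v w e
    rw [← e]
    exact h.adj v (h' v)
  edge_vert := fun _ => Set.mem_univ _
  symm := ⟨by
    intro v w e
    rw [← e]
    exact h.invol v⟩

theorem ofInv_perfect (σ : V → V) (h : IsMatch G σ) (h' : ∀ v, σ v ≠ v) :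
    (ofInv σ h h').IsPerfectMatching := by
  refine ⟨?_, fun v => Set.mem_univ v⟩
  intro v _
  exact ⟨σ v, rfl, fun w hw => Eq.symm hw⟩

theorem ratio_subgraph [Fintype V] (G : SimpleGraph V) (k : ℕ) (hk : G.indepNum ≤ k)
    (hpm : ∃ M : G.Subgraph, M.IsPerfectMatching) :
    Nat.card {M : G.Subgraph // M.IsMatching ∧ {v : V | v ∉ M.verts}.ncard = 2} ≤
      (3 * k + 1) * (Fintype.card V) ^ (3 * k + 1) *
        Nat.card {M : G.Subgraph // M.IsPerfectMatching} := by
  classical
  have hk' : ∀ s : Finset V, G.IsIndepSet (s : Set V) → s.card ≤ k :=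
    fun s hs => hs.card_le_indepNum.trans hk
  have hpm' : ∃ τ, τ ∈ PM G := by
    obtain ⟨M, hM, hs⟩ := hpm
    refine ⟨toInv M hM, toInv_isMatch M hM, ?_⟩
    intro v hv
    exact (toInv_fix_iff M hM v).mp hv (hs v)
  have h1 : Nat.card {M : G.Subgraph // M.IsMatching ∧ {v : V | v ∉ M.verts}.ncard = 2} ≤
      Nat.card (NPM G) := by
    refine Nat.card_le_card_of_injective
      (fun M => (⟨toInv M.1 M.2.1, toInv_isMatch M.1 M.2.1, ?_⟩ : NPM G)) ?_
    · have : {v | toInv M.1 M.2.1 v = v} = {v : V | v ∉ M.1.verts} := by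
        ext v
        exact toInv_fix_iff M.1 M.2.1 v
      rw [this]
      exact M.2.2
    · intro M₁ M₂ he
      apply Subtype.ext
      exact toInv_inj _ _ M₁.2.1 M₂.2.1 (congrArg Subtype.val he)
  have h2 : Nat.card (PM G) ≤ Nat.card {M : G.Subgraph // M.IsPerfectMatching} := by
    refine Nat.card_le_card_of_injective
      (fun σ => (⟨ofInv σ.1 σ.2.1 σ.2.2, ofInv_perfect σ.1 σ.2.1 σ.2.2⟩ :
        {M : G.Subgraph // M.IsPerfectMatching})) ?_
    intro σ₁ σ₂ he
    apply Subtype.ext
    funext v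
    have e : (ofInv σ₁.1 σ₁.2.1 σ₁.2.2).Adj v (σ₁.1 v) := rfl
    have he' : ofInv σ₁.1 σ₁.2.1 σ₁.2.2 = ofInv σ₂.1 σ₂.2.1 σ₂.2.2 := congrArg Subtype.val he
    rw [he'] at e
    exact Eq.symm e
  calc _ ≤ Nat.card (NPM G) := h1
    _ ≤ (3 * k + 1) * (Fintype.card V) ^ (3 * k + 1) * Nat.card (PM G) := ratio_inv hk' hpm'
    _ ≤ _ := Nat.mul_le_mul_left _ h2

end Vale.Agent.Lib.P308_helper27
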