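import Mathlib

namespace Vale.Agent.Lib.P308_helper27

variable {V : Type*}

/-- A matching of `G` encoded as an involution: `σ v = v` means that `v` is uncovered. -/
structure IsMatch (G : SimpleGraph V) (σ : V → V) : Prop where
  invol : ∀ v, σ (σ v) = v
  adj : ∀ v, σ v ≠ v → G.Adj v (σ v)

/-- `q 0, ..., q (2ℓ+1)` is an augmenting path for the matching `σ`. -/
structure IsAug (G : SimpleGraph V) (σ : V → V) (q : ℕ → V) (l : ℕ) : Prop where
  inj : ∀ m n, m ≤ 2 * l + 1 → n ≤ 2 * l + 1 → q m = q n → m = n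
  adj : ∀ i, i ≤ l → G.Adj (q (2 * i)) (q (2 * i + 1))
  mat : ∀ i, i < l → σ (q (2 * i + 1)) = q (2 * i + 2)
  fix0 : σ (q 0) = q 0
  fix1 : σ (q (2 * l + 1)) = q (2 * l + 1)

/-- the alternating sequence -/
def alt (σ τ : V → V) (u : V) : ℕ → V
  | 0 => u
  | n + 1 => if n % 2 = 0 then τ (alt σ τ u n) else σ (alt σ τ u n)

section alt
variable {σ τ : V → V} {u : V}

theorem alt_even (n : ℕ) (h : n % 2 = 0) : alt σ τ u (n + 1) = τ (alt σ τ u n) := by
  simp [alt, h]

theorem alt_odd (n : ℕ) (h : n % 2 = 1) : alt σ τ u (n + 1) = σ (alt σ τ u n) := by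
  simp [alt, h]

theorem alt_same (hσ : ∀ v, σ (σ v) = v) (hτ : ∀ v, τ (τ v) = v) (d : ℕ) :
    ∀ a, alt σ τ u a = alt σ τ u (a + 2 * d) → alt σ τ u 0 = alt σ τ u (2 * d) := by
  intro a
  induction a with
  | zero => intro h; simpa using h
  | succ a ih =>
    intro h
    apply ih
    rcases Nat.mod_two_eq_zero_or_one a with ha | ha
    · have h2 : (a + 2 * d) % 2 = 0 := by omega
      have e : a + 1 + 2 * d = (a + 2 * d) + 1 := by ring
      rw [e, alt_even a ha, alt_even _ h2] at h
      have := congrArg τ h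
      rwa [hτ, hτ] at this
    · have h2 : (a + 2 * d) % 2 = 1 := by omega
      have e : a + 1 + 2 * d = (a + 2 * d) + 1 := by ring
      rw [e, alt_odd a ha, alt_odd _ h2] at h
      have := congrArg σ h
      rwa [hσ, hσ] at this

theorem alt_diff (hσ : ∀ v, σ (σ v) = v) (hτ : ∀ v, τ (τ v) = v) :
    ∀ d a, alt σ τ u a = alt σ τ u (a + 2 * d + 1) →
      alt σ τ u (a + d) = alt σ τ u (a + d + 1) := by
  intro d
  induction d with
  | zero => intro a h; simpa using h
  | succ d ih =>
    intro a h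
    have key : alt σ τ u (a + 1) = alt σ τ u (a + 1 + 2 * d + 1) := by
      rcases Nat.mod_two_eq_zero_or_one a with ha | ha
      · have h2 : (a + 1 + 2 * d + 1) % 2 = 0 := by omega
        have e : a + 2 * (d + 1) + 1 = (a + 1 + 2 * d + 1) + 1 := by ring
        rw [e, alt_even _ h2] at h
        rw [alt_even a ha, h, hτ]
      · have h2 : (a + 1 + 2 * d + 1) % 2 = 1 := by omega
        have e : a + 2 * (d + 1) + 1 = (a + 1 + 2 * d + 1) + 1 := by ring
        rw [e, alt_odd _ h2] at h
        rw [alt_odd a ha, h, hσ]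
    have := ih (a + 1) key
    have e1 : a + (d + 1) = a + 1 + d := by ring
    rw [e1]
    exact this

/-- If no odd-indexed term before `b` is fixed by `σ`, the terms up to `b` are distinct. -/
theorem alt_ne (hσ : ∀ v, σ (σ v) = v) (hτ : ∀ v, τ (τ v) = v) (hτ' : ∀ v, τ v ≠ v)
    (hu : σ u = u) (b : ℕ)
    (hb : ∀ i, 2 * i + 1 < b → σ (alt σ τ u (2 * i + 1)) ≠ alt σ τ u (2 * i + 1))
    (a : ℕ) (hab : a < b) : alt σ τ u a ≠ alt σ τ u b := by
  intro h
  rcases Nat.even_or_odd' (b - a) with ⟨d, hd | hd⟩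
  · have hb' : b = a + 2 * d := by omega
    have hd1 : 1 ≤ d := by omega
    subst hb'
    have h0 := alt_same hσ hτ d a h
    obtain ⟨e, rfl⟩ : ∃ e, d = e + 1 := ⟨d - 1, by omega⟩
    have e1 : 2 * (e + 1) = (2 * e + 1) + 1 := by ring
    rw [e1, alt_odd _ (by omega)] at h0
    have h1 : alt σ τ u (2 * e + 1) = u := by
      have := congrArg σ h0
      rw [hσ] at this
      rw [← this]
      exact hu
    apply hb e (by omega)
    rw [h1, hu]
  · have hb' : b = a + 2 * d + 1 := by omega
    subst hb'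
    have h0 := alt_diff hσ hτ d a h
    rcases Nat.mod_two_eq_zero_or_one (a + d) with hc | hc
    · rw [alt_even _ hc] at h0
      exact hτ' _ h0.symm
    · rw [alt_odd _ hc] at h0
      obtain ⟨e, he⟩ : ∃ e, a + d = 2 * e + 1 := ⟨(a + d) / 2, by omega⟩
      apply hb e (by omega)
      rw [← he]
      exact h0.symm

end alt

/-- If a perfect matching exists, each uncovered vertex starts an augmenting path. -/
theorem exists_aug [Finite V] {G : SimpleGraph V} {σ τ : V → V} (hσ : IsMatch G σ)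
    (hτ : IsMatch G τ) (hτ' : ∀ v, τ v ≠ v) {u : V} (hu : σ u = u) :
    ∃ q l, IsAug G σ q l := by
  classical
  have hex : ∃ i, σ (alt σ τ u (2 * i + 1)) = alt σ τ u (2 * i + 1) := by
    by_contra hne
    push Not at hne
    have hinj : Function.Injective (alt σ τ u) := by
      intro a b hab
      by_contra hne'
      rcases Nat.lt_or_gt_of_ne hne' with h | h
      · exact alt_ne hσ.invol hτ.invol hτ' hu b (fun i _ => hne i) a h hab
      · exact alt_ne hσ.invol hτ.invol hτ' hu a (fun i _ => hne i) b h hab.symm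
    exact not_injective_infinite_finite _ hinj
  refine ⟨alt σ τ u, Nat.find hex, ?_, ?_, ?_, hu, Nat.find_spec hex⟩
  · intro m n hm hn hmn
    by_contra hne'
    have hmin : ∀ b, b ≤ 2 * Nat.find hex + 1 → ∀ i, 2 * i + 1 < b →
        σ (alt σ τ u (2 * i + 1)) ≠ alt σ τ u (2 * i + 1) := by
      intro b hb i hi
      exact Nat.find_min hex (by omega)
    rcases Nat.lt_or_gt_of_ne hne' with h | h
    · exact alt_ne hσ.invol hτ.invol hτ' hu n (hmin n hn) m h hmn
    · exact alt_ne hσ.invol hτ.invol hτ' hu m (hmin m hm) n h hmn.symm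
  · intro i _
    rw [alt_even _ (by omega)]
    exact hτ.adj _ (hτ' _)
  · intro i _
    exact (alt_odd (2 * i + 1) (by omega)).symm

end Vale.Agent.Lib.P308_helper27
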