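import Vale.Agent.Lib.P308_helper27.Short

namespace Vale.Agent.Lib.P308_helper27

variable {V : Type*}

/-- partner index along the path in the old matching -/
def psi (l n : ℕ) : ℕ :=
  if n = 0 then 0 else if n = 2 * l + 1 then 2 * l + 1 else if n % 2 = 1 then n + 1 else n - 1

theorem psi_le (l n : ℕ) (h : n ≤ 2 * l + 1) : psi l n ≤ 2 * l + 1 := by
  unfold psi; split_ifs <;> omega

theorem sig_path {G : SimpleGraph V} {σ : V → V} (hσ : IsMatch G σ) {q : ℕ → V} {l : ℕ}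
    (h : IsAug G σ q l) (n : ℕ) (hn : n ≤ 2 * l + 1) : σ (q n) = q (psi l n) := by
  unfold psi
  split_ifs with h0 h1 h2
  · subst h0; exact h.fix0
  · subst h1; exact h.fix1
  · obtain ⟨i, rfl⟩ : ∃ i, n = 2 * i + 1 := ⟨n / 2, by omega⟩
    exact h.mat i (by omega)
  · obtain ⟨i, rfl⟩ : ∃ i, n = 2 * i + 2 := ⟨n / 2 - 1, by omega⟩
    rw [← h.mat i (by omega), hσ.invol]
    rfl

open Classical in
/-- flipping the matching along the path -/
noncomputable def flip (σ : V → V) (q : ℕ → V) (l : ℕ) (x : V) : V :=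
  if h : ∃ n, n ≤ 2 * l + 1 ∧ q n = x then
    (if Nat.find h % 2 = 0 then q (Nat.find h + 1) else q (Nat.find h - 1))
  else σ x

theorem flip_on {G : SimpleGraph V} {σ : V → V} {q : ℕ → V} {l : ℕ}
    (h : IsAug G σ q l) (n : ℕ) (hn : n ≤ 2 * l + 1) :
    flip σ q l (q n) = if n % 2 = 0 then q (n + 1) else q (n - 1) := by
  classical
  have hex : ∃ m, m ≤ 2 * l + 1 ∧ q m = q n := ⟨n, hn, rfl⟩
  have hfind : Nat.find hex = n := by
    have := Nat.find_spec hex
    exact h.inj _ _ this.1 hn this.2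
  unfold flip
  rw [dif_pos hex, hfind]

theorem flip_even {G : SimpleGraph V} {σ : V → V} {q : ℕ → V} {l : ℕ}
    (h : IsAug G σ q l) (i : ℕ) (hi : i ≤ l) : flip σ q l (q (2 * i)) = q (2 * i + 1) := by
  rw [flip_on h _ (by omega), if_pos (by omega)]

theorem flip_odd {G : SimpleGraph V} {σ : V → V} {q : ℕ → V} {l : ℕ}
    (h : IsAug G σ q l) (i : ℕ) (hi : i ≤ l) : flip σ q l (q (2 * i + 1)) = q (2 * i) := by
  rw [flip_on h _ (by omega), if_neg (by omega)]
  rfl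

theorem flip_off {σ : V → V} {q : ℕ → V} {l : ℕ} {x : V}
    (hx : ¬ ∃ n, n ≤ 2 * l + 1 ∧ q n = x) : flip σ q l x = σ x := by
  unfold flip
  rw [dif_neg hx]

theorem off_sig {G : SimpleGraph V} {σ : V → V} (hσ : IsMatch G σ) {q : ℕ → V} {l : ℕ}
    (h : IsAug G σ q l) {x : V} (hx : ¬ ∃ n, n ≤ 2 * l + 1 ∧ q n = x) :
    ¬ ∃ n, n ≤ 2 * l + 1 ∧ q n = σ x := by
  rintro ⟨n, hn, hq⟩
  apply hx
  refine ⟨psi l n, psi_le l n hn, ?_⟩
  rw [← sig_path hσ h n hn, hq, hσ.invol]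

theorem flip_isMatch {G : SimpleGraph V} {σ : V → V} (hσ : IsMatch G σ) {q : ℕ → V} {l : ℕ}
    (h : IsAug G σ q l) : IsMatch G (flip σ q l) := by
  constructor
  · intro x
    by_cases hx : ∃ n, n ≤ 2 * l + 1 ∧ q n = x
    · obtain ⟨n, hn, rfl⟩ := hx
      rcases Nat.even_or_odd' n with ⟨i, rfl | rfl⟩
      · rw [flip_even h i (by omega), flip_odd h i (by omega)]
      · rw [flip_odd h i (by omega), flip_even h i (by omega)]
    · rw [flip_off hx, flip_off (off_sig hσ h hx), hσ.invol]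
  · intro x hne
    by_cases hx : ∃ n, n ≤ 2 * l + 1 ∧ q n = x
    · obtain ⟨n, hn, rfl⟩ := hx
      rcases Nat.even_or_odd' n with ⟨i, rfl | rfl⟩
      · rw [flip_even h i (by omega)]
        exact h.adj i (by omega)
      · rw [flip_odd h i (by omega)]
        exact (h.adj i (by omega)).symm
    · rw [flip_off hx] at hne ⊢
      exact hσ.adj x hne

theorem flip_ne {G : SimpleGraph V} {σ : V → V} {q : ℕ → V} {l : ℕ}
    (h : IsAug G σ q l) (hfix : ∀ x, σ x = x → x = q 0 ∨ x = q (2 * l + 1)) (x : V) :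
    flip σ q l x ≠ x := by
  by_cases hx : ∃ n, n ≤ 2 * l + 1 ∧ q n = x
  · obtain ⟨n, hn, rfl⟩ := hx
    rcases Nat.even_or_odd' n with ⟨i, rfl | rfl⟩
    · rw [flip_even h i (by omega)]
      exact (h.adj i (by omega)).ne'
    · rw [flip_odd h i (by omega)]
      exact (h.adj i (by omega)).ne
  · rw [flip_off hx]
    intro hf
    apply hx
    rcases hfix x hf with rfl | rfl
    · exact ⟨0, by omega, rfl⟩
    · exact ⟨2 * l + 1, le_refl _, rfl⟩

/-- the old matching can be recovered from the flipped one and the even path vertices -/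
theorem recover {G : SimpleGraph V} {σ₁ σ₂ : V → V} (hσ₁ : IsMatch G σ₁) (hσ₂ : IsMatch G σ₂)
    {q₁ q₂ : ℕ → V} {l : ℕ} (h₁ : IsAug G σ₁ q₁ l) (h₂ : IsAug G σ₂ q₂ l)
    (hflip : flip σ₁ q₁ l = flip σ₂ q₂ l) (hq : ∀ i, i ≤ l → q₁ (2 * i) = q₂ (2 * i)) :
    σ₁ = σ₂ := by
  have hq' : ∀ n, n ≤ 2 * l + 1 → q₁ n = q₂ n := by
    intro n hn
    rcases Nat.even_or_odd' n with ⟨i, rfl | rfl⟩
    · exact hq i (by omega)
    · rw [← flip_even h₁ i (by omega), ← flip_even h₂ i (by omega), hflip, hq i (by omega)]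
  funext x
  by_cases hx : ∃ n, n ≤ 2 * l + 1 ∧ q₁ n = x
  · obtain ⟨n, hn, rfl⟩ := hx
    rw [sig_path hσ₁ h₁ n hn, hq' n hn, sig_path hσ₂ h₂ n hn, hq' _ (psi_le l n hn)]
  · have hx2 : ¬ ∃ n, n ≤ 2 * l + 1 ∧ q₂ n = x := by
      rintro ⟨n, hn, hqn⟩
      exact hx ⟨n, hn, by rw [hq' n hn, hqn]⟩
    rw [← flip_off (σ := σ₁) hx, ← flip_off (σ := σ₂) hx2, hflip]

/-- near-perfect matchings as involutions -/
def NPM (G : SimpleGraph V) : Set (V → V) :=
  {σ | IsMatch G σ ∧ {v | σ v = v}.ncard = 2}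

/-- perfect matchings as involutions -/
def PM (G : SimpleGraph V) : Set (V → V) :=
  {σ | IsMatch G σ ∧ ∀ v, σ v ≠ v}

theorem ratio_inv [Fintype V] {G : SimpleGraph V} {k : ℕ}
    (hk : ∀ s : Finset V, G.IsIndepSet (s : Set V) → s.card ≤ k)
    (hpm : ∃ τ, τ ∈ PM G) :
    Nat.card (NPM G) ≤ (3 * k + 1) * (Fintype.card V) ^ (3 * k + 1) * Nat.card (PM G) := by
  classical
  obtain ⟨τ, hτ, hτ'⟩ := hpm
  have hch : ∀ σ : NPM G, ∃ (q : ℕ → V) (l : ℕ), IsAug G σ.1 q l ∧ l ≤ 3 * k := by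
    rintro ⟨σ, hσ, hc⟩
    have hne : ({v | σ v = v} : Set V).Nonempty := by
      rw [← Set.ncard_pos]
      omega
    obtain ⟨u, hu⟩ := hne
    exact exists_short_aug hk hσ hτ hτ' hu
  choose q l haug hl using hch
  have hfix : ∀ σ : NPM G, ∀ x, σ.1 x = x → x = q σ 0 ∨ x = q σ (2 * l σ + 1) := by
    intro σ x hx
    have hc := σ.2.2
    have hne : q σ 0 ≠ q σ (2 * l σ + 1) := by
      intro he
      have := (haug σ).inj _ _ (by omega) (le_refl _) he
      omega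
    have hsub : ({q σ 0, q σ (2 * l σ + 1)} : Set V) ⊆ {v | σ.1 v = v} := by
      intro y hy
      rcases hy with rfl | rfl
      · exact (haug σ).fix0
      · exact (haug σ).fix1
    have heq := Set.eq_of_subset_of_ncard_le hsub (by rw [hc, Set.ncard_pair hne])
      (Set.toFinite _)
    have : x ∈ ({q σ 0, q σ (2 * l σ + 1)} : Set V) := by
      rw [heq]; exact hx
    exact this
  let F : NPM G → (PM G) × (Fin (3 * k + 1) → V) × Fin (3 * k + 1) := fun σ =>
    (⟨flip σ.1 (q σ) (l σ), flip_isMatch σ.2.1 (haug σ), flip_ne (haug σ) (hfix σ)⟩,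
      fun i => q σ (2 * i.1), ⟨l σ, by have := hl σ; omega⟩)
  have hF : Function.Injective F := by
    intro σ₁ σ₂ he
    simp only [F, Prod.mk.injEq, Fin.mk.injEq] at he
    obtain ⟨he1, he2, he3⟩ := he
    have he1' : flip σ₁.1 (q σ₁) (l σ₁) = flip σ₂.1 (q σ₂) (l σ₂) := congrArg Subtype.val he1
    apply Subtype.ext
    have h2 := haug σ₂
    rw [← he3] at h2 he1'
    refine recover σ₁.2.1 σ₂.2.1 (haug σ₁) h2 he1' ?_
    intro i hi
    have := congrFun he2 ⟨i, by have := hl σ₁; omega⟩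
    exact this
  have := Nat.card_le_card_of_injective F hF
  rw [Nat.card_prod, Nat.card_prod, Nat.card_fun, Nat.card_fin,
    Nat.card_eq_fintype_card (α := V)] at this
  calc Nat.card (NPM G) ≤ _ := this
    _ = _ := by ring

end Vale.Agent.Lib.P308_helper27
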