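import Vale.Agent.Lib.P308_helper27.Aug

namespace Vale.Agent.Lib.P308_helper27

variable {V : Type*}

/-- index map of the shortcut -/
def phi (i j s : ℕ) (n : ℕ) : ℕ :=
  if n ≤ 2 * i then n else if n = 2 * i + 1 then 2 * j else if n = 2 * i + 2 then 2 * j - 1
  else n + 2 * s

/-- The shortcut: from `a_i ~ a_j` and `b_{j-1} ~ b_m` one gets a shorter augmenting path. -/
theorem shortcut {G : SimpleGraph V} {σ : V → V} (hσ : IsMatch G σ) {q : ℕ → V} {l : ℕ}
    (h : IsAug G σ q l) {i j m : ℕ} (hij : i < j) (hjm : j ≤ m) (hml : m ≤ l) (him : i + 2 ≤ m)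
    (h1 : G.Adj (q (2 * i)) (q (2 * j))) (h2 : G.Adj (q (2 * j - 1)) (q (2 * m + 1))) :
    ∃ q' l', IsAug G σ q' l' ∧ l' < l := by
  obtain ⟨s, hs⟩ : ∃ s, m = i + 1 + s := ⟨m - i - 1, by omega⟩
  obtain ⟨l', hl'⟩ : ∃ l', l = l' + s := ⟨l - s, by omega⟩
  refine ⟨fun n => q (phi i j s n), l', ⟨?_, ?_, ?_, ?_, ?_⟩, by omega⟩
  · intro a b ha hb hab
    have := h.inj _ _ (by unfold phi; split_ifs <;> omega) (by unfold phi; split_ifs <;> omega) hab
    unfold phi at this
    split_ifs at this <;> omega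
  · intro t ht
    rcases lt_trichotomy t i with hti | hti | hti
    · have e1 : phi i j s (2 * t) = 2 * t := by unfold phi; split_ifs <;> omega
      have e2 : phi i j s (2 * t + 1) = 2 * t + 1 := by unfold phi; split_ifs <;> omega
      simp only [e1, e2]
      exact h.adj t (by omega)
    · have e1 : phi i j s (2 * t) = 2 * i := by unfold phi; split_ifs <;> omega
      have e2 : phi i j s (2 * t + 1) = 2 * j := by unfold phi; split_ifs <;> omega
      simp only [e1, e2]
      exact h1
    · rcases Nat.eq_or_lt_of_le (Nat.succ_le_of_lt hti) with hti' | hti'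
      · have e1 : phi i j s (2 * t) = 2 * j - 1 := by unfold phi; split_ifs <;> omega
        have e2 : phi i j s (2 * t + 1) = 2 * m + 1 := by unfold phi; split_ifs <;> omega
        simp only [e1, e2]
        exact h2
      · have e1 : phi i j s (2 * t) = 2 * (t + s) := by unfold phi; split_ifs <;> omega
        have e2 : phi i j s (2 * t + 1) = 2 * (t + s) + 1 := by unfold phi; split_ifs <;> omega
        simp only [e1, e2]
        exact h.adj (t + s) (by omega)
  · intro t ht
    rcases lt_trichotomy t i with hti | hti | hti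
    · have e1 : phi i j s (2 * t + 1) = 2 * t + 1 := by unfold phi; split_ifs <;> omega
      have e2 : phi i j s (2 * t + 2) = 2 * t + 2 := by unfold phi; split_ifs <;> omega
      simp only [e1, e2]
      exact h.mat t (by omega)
    · have e1 : phi i j s (2 * t + 1) = 2 * (j - 1) + 2 := by unfold phi; split_ifs <;> omega
      have e2 : phi i j s (2 * t + 2) = 2 * (j - 1) + 1 := by unfold phi; split_ifs <;> omega
      simp only [e1, e2]
      rw [← h.mat (j - 1) (by omega), hσ.invol]
    · have e1 : phi i j s (2 * t + 1) = 2 * (t + s) + 1 := by unfold phi; split_ifs <;> omega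
      have e2 : phi i j s (2 * t + 2) = 2 * (t + s) + 2 := by unfold phi; split_ifs <;> omega
      simp only [e1, e2]
      exact h.mat (t + s) (by omega)
  · have e1 : phi i j s 0 = 0 := by unfold phi; split_ifs <;> omega
    simp only [e1]
    exact h.fix0
  · have e1 : phi i j s (2 * l' + 1) = 2 * l + 1 := by unfold phi; split_ifs <;> omega
    simp only [e1]
    exact h.fix1

/-- a family of distinct, pairwise non-adjacent vertices has at most `k` members -/
theorem card_le_of_indep {G : SimpleGraph V} {k : ℕ}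
    (hk : ∀ s : Finset V, G.IsIndepSet (s : Set V) → s.card ≤ k)
    (S : Finset ℕ) (f : ℕ → V) (hinj : ∀ a ∈ S, ∀ b ∈ S, f a = f b → a = b)
    (hind : ∀ a ∈ S, ∀ b ∈ S, a < b → ¬ G.Adj (f a) (f b)) : S.card ≤ k := by
  classical
  have h1 : (S.image f).card = S.card := Finset.card_image_of_injOn (by
    intro a ha b hb hab
    exact hinj a ha b hb hab)
  rw [← h1]
  apply hk
  intro x hx y hy hxy
  simp only [Finset.coe_image, Set.mem_image, Finset.mem_coe] at hx hy
  obtain ⟨a, ha, rfl⟩ := hx
  obtain ⟨b, hb, rfl⟩ := hy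
  have hab : a ≠ b := fun e => hxy (by rw [e])
  rcases Nat.lt_or_gt_of_ne hab with h | h
  · exact hind a ha b hb h
  · exact fun hadj => hind b hb a ha h hadj.symm

/-- A shortest augmenting path has at most `6k+2` vertices when `α(G) ≤ k`. -/
theorem short_of_min {G : SimpleGraph V} {k : ℕ}
    (hk : ∀ s : Finset V, G.IsIndepSet (s : Set V) → s.card ≤ k)
    {σ : V → V} (hσ : IsMatch G σ) {q : ℕ → V} {l : ℕ} (h : IsAug G σ q l)
    (hmin : ∀ q' l', IsAug G σ q' l' → l ≤ l') : l ≤ 3 * k := by
  classical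
  set SB : Finset ℕ := (Finset.Icc 1 l).filter
    (fun j => ∀ m, j ≤ m → m ≤ l → ¬ G.Adj (q (2 * j - 1)) (q (2 * m + 1))) with hSB
  set SA : ℕ → Finset ℕ := fun r => (Finset.Icc 1 l).filter
    (fun j => j % 2 = r ∧ ∀ i, i + 2 ≤ j → ¬ G.Adj (q (2 * i)) (q (2 * j))) with hSA
  have hcov : Finset.Icc 1 l ⊆ SB ∪ (SA 0 ∪ SA 1) := by
    intro j hj
    have hj' := Finset.mem_Icc.mp hj
    by_contra hnot
    simp only [Finset.mem_union, not_or] at hnot
    obtain ⟨hB, hA0, hA1⟩ := hnot
    have hB' : ∃ m, j ≤ m ∧ m ≤ l ∧ G.Adj (q (2 * j - 1)) (q (2 * m + 1)) := by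
      by_contra hc
      push Not at hc
      exact hB (Finset.mem_filter.mpr ⟨hj, hc⟩)
    have hA' : ∃ i, i + 2 ≤ j ∧ G.Adj (q (2 * i)) (q (2 * j)) := by
      by_contra hc
      push Not at hc
      rcases Nat.mod_two_eq_zero_or_one j with hp | hp
      · exact hA0 (Finset.mem_filter.mpr ⟨hj, hp, hc⟩)
      · exact hA1 (Finset.mem_filter.mpr ⟨hj, hp, hc⟩)
    obtain ⟨m, hjm, hml, hadj2⟩ := hB'
    obtain ⟨i, hij, hadj1⟩ := hA'
    obtain ⟨q', l', haug, hlt⟩ := shortcut hσ h (i := i) (j := j) (m := m) (by omega) hjm hml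
      (by omega) hadj1 hadj2
    have := hmin q' l' haug
    omega
  have hBk : SB.card ≤ k := by
    apply card_le_of_indep hk SB (fun j => q (2 * j - 1))
    · intro a ha b hb hab
      have ha' := Finset.mem_Icc.mp (Finset.mem_filter.mp ha).1
      have hb' := Finset.mem_Icc.mp (Finset.mem_filter.mp hb).1
      have := h.inj _ _ (by omega) (by omega) hab
      omega
    · intro a ha b hb hab
      have ha' := Finset.mem_Icc.mp (Finset.mem_filter.mp ha).1
      have hb' := Finset.mem_Icc.mp (Finset.mem_filter.mp hb).1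
      have := (Finset.mem_filter.mp ha).2 (b - 1) (by omega) (by omega)
      have e : 2 * (b - 1) + 1 = 2 * b - 1 := by omega
      rwa [e] at this
  have hAk : ∀ r, (SA r).card ≤ k := by
    intro r
    apply card_le_of_indep hk (SA r) (fun j => q (2 * j))
    · intro a ha b hb hab
      have ha' := Finset.mem_Icc.mp (Finset.mem_filter.mp ha).1
      have hb' := Finset.mem_Icc.mp (Finset.mem_filter.mp hb).1
      have := h.inj _ _ (by omega) (by omega) hab
      omega
    · intro a ha b hb hab
      have ha2 := (Finset.mem_filter.mp ha).2.1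
      have hb2 := (Finset.mem_filter.mp hb).2.1
      exact (Finset.mem_filter.mp hb).2.2 a (by omega)
  have hcard := Finset.card_le_card hcov
  have h1 := Finset.card_union_le SB (SA 0 ∪ SA 1)
  have h2 := Finset.card_union_le (SA 0) (SA 1)
  have h3 := hAk 0
  have h4 := hAk 1
  rw [Nat.card_Icc] at hcard
  omega

/-- Existence of a short augmenting path. -/
theorem exists_short_aug [Finite V] {G : SimpleGraph V} {k : ℕ}
    (hk : ∀ s : Finset V, G.IsIndepSet (s : Set V) → s.card ≤ k)
    {σ τ : V → V} (hσ : IsMatch G σ) (hτ : IsMatch G τ) (hτ' : ∀ v, τ v ≠ v) {u : V}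
    (hu : σ u = u) : ∃ q l, IsAug G σ q l ∧ l ≤ 3 * k := by
  classical
  have hex : ∃ l, ∃ q, IsAug G σ q l := by
    obtain ⟨q, l, h⟩ := exists_aug hσ hτ hτ' hu
    exact ⟨l, q, h⟩
  obtain ⟨q, hq⟩ := Nat.find_spec hex
  refine ⟨q, Nat.find hex, hq, short_of_min hk hσ hq ?_⟩
  intro q' l' h'
  exact Nat.find_min' hex ⟨q', h'⟩

end Vale.Agent.Lib.P308_helper27
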